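import Vale.Agent.Lib.P040.Mono

/-! P040: drawings of complete bipartite graphs with one class on a line and monotone edges. -/

open Finset

namespace Vale.Agent.P040

/-- A drawing of `K_{m,n}` in the plane in which the class of size `m` lies on the line `y = 0`,
at the points `(p i, 0)`, the other vertices are `(b k, h k)` with `h k ≠ 0`, and the edge from
`(p i, 0)` to `(b k, h k)` is the graph `x = f k i y`, `y` between `0` and `h k`, of a continuous
function of `y` (a curve monotone in the direction orthogonal to the line).  No edge passes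
through a vertex other than its endpoints. -/
structure LineDrawing (m n : ℕ) where
  p : Fin m → ℝ
  b : Fin n → ℝ
  h : Fin n → ℝ
  f : Fin n → Fin m → ℝ → ℝ
  p_inj : Function.Injective p
  h_ne : ∀ k, h k ≠ 0
  cont : ∀ k i, ContinuousOn (f k i) (Set.uIcc 0 (h k))
  start : ∀ k i, f k i 0 = p i
  finish : ∀ k i, f k i (h k) = b k
  avoid : ∀ k l i, k ≠ l → h l ∈ Set.uIcc 0 (h k) → f k i (h l) ≠ b l

/-- The open edges `(k, i)` and `(l, j)` have a common point. -/
def LineDrawing.Cross {m n : ℕ} (D : LineDrawing m n) (k : Fin n) (i : Fin m) (l : Fin n)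
    (j : Fin m) : Prop :=
  ∃ y : ℝ, (0 < y * D.h k ∧ |y| < |D.h k|) ∧ (0 < y * D.h l ∧ |y| < |D.h l|) ∧
    D.f k i y = D.f l j y

theorem cross_symm {m n : ℕ} (D : LineDrawing m n) {k : Fin n} {i : Fin m} {l : Fin n}
    {j : Fin m} (h : D.Cross k i l j) : D.Cross l j k i := by
  obtain ⟨y, h1, h2, h3⟩ := h
  exact ⟨y, h2, h1, h3.symm⟩

theorem mem_uIcc_of {a c : ℝ} (h1 : 0 < a * c) (h2 : |a| ≤ |c|) : a ∈ Set.uIcc 0 c := by
  rw [Set.mem_uIcc]
  rcases lt_trichotomy c 0 with hc | hc | hc
  · have ha : a < 0 := by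
      by_contra hcon
      push Not at hcon
      have := mul_nonpos_of_nonneg_of_nonpos hcon hc.le
      linarith
    rw [abs_of_neg ha, abs_of_neg hc] at h2
    exact Or.inr ⟨by linarith, ha.le⟩
  · rw [hc] at h1; simp at h1
  · have ha : 0 < a := by
      by_contra hcon
      push Not at hcon
      have := mul_nonpos_of_nonpos_of_nonneg hcon hc.le
      linarith
    rw [abs_of_pos ha, abs_of_pos hc] at h2
    exact Or.inl ⟨ha.le, h2⟩

/-- the intermediate value argument -/
theorem cross_of {m n : ℕ} (D : LineDrawing m n) {k l : Fin n} (hkl : 0 < D.h l * D.h k)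
    (hle : |D.h l| ≤ |D.h k|) {i j : Fin m}
    (hsep : (D.b l < D.f k i (D.h l) ∧ D.p i < D.p j) ∨
      (D.f k i (D.h l) < D.b l ∧ D.p j < D.p i)) : D.Cross k i l j := by
  have hsub : Set.uIcc 0 (D.h l) ⊆ Set.uIcc 0 (D.h k) :=
    Set.uIcc_subset_uIcc Set.left_mem_uIcc (mem_uIcc_of hkl hle)
  have hc : ContinuousOn (fun y => D.f k i y - D.f l j y) (Set.uIcc 0 (D.h l)) :=
    ((D.cont k i).mono hsub).sub (D.cont l j)
  have h0 : D.f k i 0 - D.f l j 0 = D.p i - D.p j := by rw [D.start, D.start]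
  have h1 : D.f k i (D.h l) - D.f l j (D.h l) = D.f k i (D.h l) - D.b l := by rw [D.finish l j]
  have hz : (0 : ℝ) ∈ Set.uIcc (D.f k i 0 - D.f l j 0) (D.f k i (D.h l) - D.f l j (D.h l)) := by
    rw [h0, h1, Set.mem_uIcc]
    rcases hsep with ⟨h2, h3⟩ | ⟨h2, h3⟩
    · exact Or.inl ⟨by linarith, by linarith⟩
    · exact Or.inr ⟨by linarith, by linarith⟩
  obtain ⟨y, hy, hy0⟩ := intermediate_value_uIcc hc hz
  have hy0' : D.f k i y - D.f l j y = 0 := hy0
  have hne0 : y ≠ 0 := by
    rintro rfl
    rw [h0] at hy0'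
    rcases hsep with ⟨_, h3⟩ | ⟨_, h3⟩ <;> linarith
  have hne1 : y ≠ D.h l := by
    rintro rfl
    rw [h1] at hy0'
    rcases hsep with ⟨h3, _⟩ | ⟨h3, _⟩ <;> linarith
  have hyl : 0 < y * D.h l ∧ |y| < |D.h l| := by
    rw [Set.mem_uIcc] at hy
    rcases hy with ⟨h2, h3⟩ | ⟨h2, h3⟩
    · have hy1 : 0 < y := lt_of_le_of_ne h2 (Ne.symm hne0)
      have hy2 : y < D.h l := lt_of_le_of_ne h3 hne1
      have hy3 : 0 < D.h l := hy1.trans hy2
      exact ⟨mul_pos hy1 hy3, by rw [abs_of_pos hy1, abs_of_pos hy3]; exact hy2⟩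
    · have hy1 : y < 0 := lt_of_le_of_ne h3 hne0
      have hy2 : D.h l < y := lt_of_le_of_ne h2 (Ne.symm hne1)
      have hy3 : D.h l < 0 := hy2.trans hy1
      exact ⟨mul_pos_of_neg_of_neg hy1 hy3, by
        rw [abs_of_neg hy1, abs_of_neg hy3]; linarith⟩
  refine ⟨y, ⟨?_, hyl.2.trans_le hle⟩, hyl, by linarith⟩
  have h5 : 0 < (y * D.h l) * (D.h l * D.h k) := mul_pos hyl.1 hkl
  have h6 : (y * D.h l) * (D.h l * D.h k) = (y * D.h k) * (D.h l) ^ 2 := by ring
  rw [h6] at h5
  have h7 : 0 < (D.h l) ^ 2 := by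
    have := D.h_ne l
    positivity
  exact (mul_pos_iff_of_pos_right h7).1 h5

open Classical in
/-- the number of crossing pairs of edges at a pair of vertices on the same side -/
theorem count_pair {m n : ℕ} (D : LineDrawing m n) (hp : StrictMono D.p) {k l : Fin n}
    (hne : k ≠ l) (hkl : 0 < D.h l * D.h k) (hle : |D.h l| ≤ |D.h k|) :
    d m ≤ ∑ i : Fin m, ((univ : Finset (Fin m)).filter
      (fun j => i ≠ j ∧ D.Cross k i l j)).card := by
  rw [← sum_min m, ← Fin.sum_univ_eq_sum_range (fun i => min i (m - 1 - i)) m]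
  apply Finset.sum_le_sum
  intro i _
  have hav := D.avoid k l i hne (mem_uIcc_of hkl hle)
  rcases lt_or_gt_of_ne hav with h | h
  · refine (min_le_left _ _).trans ?_
    rw [← Fin.card_Iio i]
    apply Finset.card_le_card
    intro j hj
    rw [Finset.mem_Iio] at hj
    rw [Finset.mem_filter]
    exact ⟨Finset.mem_univ _, hj.ne', cross_of D hkl hle (Or.inr ⟨h, hp hj⟩)⟩
  · refine (min_le_right _ _).trans ?_
    have e : m - 1 - (i : ℕ) = (Finset.Ioi i).card := by rw [Fin.card_Ioi]
    rw [e]
    apply Finset.card_le_card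
    intro j hj
    rw [Finset.mem_Ioi] at hj
    rw [Finset.mem_filter]
    exact ⟨Finset.mem_univ _, hj.ne, cross_of D hkl hle (Or.inl ⟨h, hp hj⟩)⟩

open Classical in
/-- the crossing pairs of edges: the two vertices off the line in increasing order, and two
different vertices on the line -/
noncomputable def crossings {m n : ℕ} (D : LineDrawing m n) :
    Finset ((Fin n × Fin n) × (Fin m × Fin m)) :=
  univ.filter (fun t => t.1.1 < t.1.2 ∧ t.2.1 ≠ t.2.2 ∧ D.Cross t.1.1 t.2.1 t.1.2 t.2.2)

theorem count_same {m n : ℕ} (D : LineDrawing m n) (hp : StrictMono D.p) {k l : Fin n}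
    (hne : k < l) (hkl : 0 < D.h k * D.h l) :
    d m ≤ ((crossings D).filter (fun t => t.1 = (k, l))).card := by
  classical
  have hinj : ∀ S : Finset (Fin m × Fin m), (∀ s ∈ S, s.1 ≠ s.2 ∧ D.Cross k s.1 l s.2) →
      S.card ≤ ((crossings D).filter (fun t => t.1 = (k, l))).card := by
    intro S hS
    apply Finset.card_le_card_of_injOn (fun s => ((k, l), s))
    · intro s hs
      have := hS s hs
      simp only [Finset.coe_filter, Set.mem_ofPred_eq, crossings, Finset.mem_filter,
        Finset.mem_univ, true_and]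
      exact ⟨⟨hne, this.1, this.2⟩, trivial⟩
    · intro s _ s' _ h
      exact (Prod.mk.injEq _ _ _ _ ▸ h).2
  rcases le_total |D.h l| |D.h k| with hle | hle
  · have h1 := count_pair D hp hne.ne (by rw [mul_comm]; exact hkl) hle
    refine h1.trans ?_
    have h2 : ∑ i : Fin m, ((univ : Finset (Fin m)).filter
        (fun j => i ≠ j ∧ D.Cross k i l j)).card =
        ((univ : Finset (Fin m × Fin m)).filter
          (fun s => s.1 ≠ s.2 ∧ D.Cross k s.1 l s.2)).card := by
      simp only [Finset.card_filter]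
      rw [Fintype.sum_prod_type]
    rw [h2]
    exact hinj _ (fun s hs => (Finset.mem_filter.1 hs).2)
  · have h1 := count_pair D hp hne.ne' hkl hle
    refine h1.trans ?_
    have h2 : ∑ j : Fin m, ((univ : Finset (Fin m)).filter
        (fun i => j ≠ i ∧ D.Cross l j k i)).card =
        ((univ : Finset (Fin m × Fin m)).filter
          (fun s => s.1 ≠ s.2 ∧ D.Cross k s.1 l s.2)).card := by
      simp only [Finset.card_filter]
      rw [Fintype.sum_prod_type_right]
      apply Finset.sum_congr rfl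
      intro j _
      apply Finset.sum_congr rfl
      intro i _
      have : (j ≠ i ∧ D.Cross l j k i) ↔ (i ≠ j ∧ D.Cross k i l j) :=
        ⟨fun h => ⟨h.1.symm, cross_symm D h.2⟩, fun h => ⟨h.1.symm, cross_symm D h.2⟩⟩
      simp only [this]
    rw [h2]
    exact hinj _ (fun s hs => (Finset.mem_filter.1 hs).2)

/-- the bound when the points on the line are numbered from left to right -/
theorem bound_mono {m n : ℕ} (D : LineDrawing m n) (hp : StrictMono D.p) :
    d m * d n ≤ (crossings D).card := by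
  classical
  set P : Finset (Fin n) := univ.filter (fun k => 0 < D.h k) with hP
  set Q : Finset (Fin n) := univ.filter (fun k => ¬ 0 < D.h k) with hQ
  have hPQ : P.card + Q.card = n := by
    rw [hP, hQ, Finset.card_filter_add_card_filter_not]
    simp
  set S : Finset (Fin n × Fin n) := (P ×ˢ P).filter (fun t => t.1 < t.2) ∪
    (Q ×ˢ Q).filter (fun t => t.1 < t.2) with hS
  have hdisj : Disjoint ((P ×ˢ P).filter (fun t => t.1 < t.2))
      ((Q ×ˢ Q).filter (fun t => t.1 < t.2)) := by
    rw [Finset.disjoint_left]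
    rintro ⟨x, y⟩ hx hy
    simp only [Finset.mem_filter, Finset.mem_product, hP, hQ, Finset.mem_univ, true_and] at hx hy
    exact hy.1.1 hx.1.1
  have hScard : d n ≤ S.card := by
    rw [hS, Finset.card_union_of_disjoint hdisj]
    have h1 := pairs_lt P
    have h2 := pairs_lt Q
    have h3 := two_d_le P.card Q.card
    rw [hPQ] at h3
    omega
  have hsame : ∀ t ∈ S, t.1 < t.2 ∧ 0 < D.h t.1 * D.h t.2 := by
    rintro ⟨x, y⟩ ht
    simp only [hS, Finset.mem_union, Finset.mem_filter, Finset.mem_product, hP, hQ,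
      Finset.mem_univ, true_and] at ht
    rcases ht with ⟨⟨hx, hy⟩, hlt⟩ | ⟨⟨hx, hy⟩, hlt⟩
    · exact ⟨hlt, mul_pos hx hy⟩
    · have hx' : D.h x < 0 := lt_of_le_of_ne (not_lt.1 hx) (D.h_ne x)
      have hy' : D.h y < 0 := lt_of_le_of_ne (not_lt.1 hy) (D.h_ne y)
      exact ⟨hlt, mul_pos_of_neg_of_neg hx' hy'⟩
  calc d m * d n ≤ d m * S.card := Nat.mul_le_mul_left _ hScard
    _ = ∑ _t ∈ S, d m := by rw [Finset.sum_const, smul_eq_mul, mul_comm]
    _ ≤ ∑ t ∈ S, ((crossings D).filter (fun u => u.1 = t)).card := by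
        apply Finset.sum_le_sum
        intro t ht
        obtain ⟨h1, h2⟩ := hsame t ht
        exact count_same D hp h1 h2
    _ ≤ ∑ t : Fin n × Fin n, ((crossings D).filter (fun u => u.1 = t)).card :=
        Finset.sum_le_sum_of_subset (Finset.subset_univ _)
    _ = (crossings D).card := (Finset.card_eq_sum_card_fiberwise (fun _ _ => Finset.mem_univ _)).symm

/-- renumbering the points on the line -/
def LineDrawing.perm {m n : ℕ} (D : LineDrawing m n) (σ : Equiv.Perm (Fin m)) :
    LineDrawing m n where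
  p := fun i => D.p (σ i)
  b := D.b
  h := D.h
  f := fun k i => D.f k (σ i)
  p_inj := D.p_inj.comp σ.injective
  h_ne := D.h_ne
  cont := fun k i => D.cont k (σ i)
  start := fun k i => D.start k (σ i)
  finish := fun k i => D.finish k (σ i)
  avoid := fun k l i => D.avoid k l (σ i)

/-- Zarankiewicz's bound for all these drawings -/
theorem bound {m n : ℕ} (D : LineDrawing m n) : d m * d n ≤ (crossings D).card := by
  classical
  have hmono : StrictMono (D.perm (Tuple.sort D.p)).p := by
    have h1 : Monotone (D.p ∘ Tuple.sort D.p) := Tuple.monotone_sort D.p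
    exact h1.strictMono_of_injective (D.p_inj.comp (Tuple.sort D.p).injective)
  refine (bound_mono (D.perm (Tuple.sort D.p)) hmono).trans ?_
  apply Finset.card_le_card_of_injOn
    (fun t => (t.1, (Tuple.sort D.p t.2.1, Tuple.sort D.p t.2.2)))
  · intro t ht
    simp only [crossings, Finset.coe_filter, Finset.mem_univ, true_and, Set.mem_ofPred_eq] at ht ⊢
    exact ⟨ht.1, fun h => ht.2.1 ((Tuple.sort D.p).injective h), ht.2.2⟩
  · rintro ⟨t1, t2, t3⟩ _ ⟨s1, s2, s3⟩ _ h
    simp only [Prod.mk.injEq, EmbeddingLike.apply_eq_iff_eq] at h ⊢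
    exact h

end Vale.Agent.P040
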