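import Mathlib

/-! P040: drawings of complete bipartite graphs with one class on a line and monotone edges. -/

open Finset

namespace Vale.Agent.P040

/-- `d r = ⌊r/2⌋ ⌊(r-1)/2⌋` -/
def d (r : ℕ) : ℕ := (r / 2) * ((r - 1) / 2)

theorem d_step (m : ℕ) : d (m + 2) = d m + m := by
  unfold d
  rcases Nat.even_or_odd' m with ⟨h, rfl | rfl⟩
  · rcases Nat.eq_zero_or_pos h with rfl | hh
    · simp
    · have e1 : (2 * h + 2) / 2 = h + 1 := by omega
      have e2 : (2 * h + 2 - 1) / 2 = h := by omega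
      have e3 : (2 * h) / 2 = h := by omega
      have e4 : (2 * h - 1) / 2 = h - 1 := by omega
      rw [e1, e2, e3, e4]
      obtain ⟨g, rfl⟩ : ∃ g, h = g + 1 := ⟨h - 1, by omega⟩
      simp only [Nat.add_sub_cancel]
      ring
  · have e1 : (2 * h + 1 + 2) / 2 = h + 1 := by omega
    have e2 : (2 * h + 1 + 2 - 1) / 2 = h + 1 := by omega
    have e3 : (2 * h + 1) / 2 = h := by omega
    have e4 : (2 * h + 1 - 1) / 2 = h := by omega
    rw [e1, e2, e3, e4]
    ring

theorem sum_min : ∀ m : ℕ, ∑ i ∈ range m, min i (m - 1 - i) = d m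
  | 0 => by simp [d]
  | 1 => by simp [d]
  | m + 2 => by
    rw [d_step, ← sum_min m, Finset.sum_range_succ, Finset.sum_range_succ']
    have e1 : ∑ k ∈ range m, min (k + 1) (m + 2 - 1 - (k + 1)) =
        ∑ k ∈ range m, (min k (m - 1 - k) + 1) := by
      apply Finset.sum_congr rfl
      intro k hk
      rw [Finset.mem_range] at hk
      omega
    rw [e1, Finset.sum_add_distrib]
    simp

theorem two_d_le (a b : ℕ) : 2 * d (a + b) ≤ a * (a - 1) + b * (b - 1) := by
  have ha : ((a * (a - 1) : ℕ) : ℤ) = (a : ℤ) * a - a := by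
    rcases Nat.eq_zero_or_pos a with rfl | h
    · simp
    · obtain ⟨g, rfl⟩ : ∃ g, a = g + 1 := ⟨a - 1, by omega⟩
      push_cast [Nat.add_sub_cancel]
      ring
  have hb : ((b * (b - 1) : ℕ) : ℤ) = (b : ℤ) * b - b := by
    rcases Nat.eq_zero_or_pos b with rfl | h
    · simp
    · obtain ⟨g, rfl⟩ : ∃ g, b = g + 1 := ⟨b - 1, by omega⟩
      push_cast [Nat.add_sub_cancel]
      ring
  zify
  push_cast at ha hb
  rcases Nat.even_or_odd' (a + b) with ⟨h, hh | hh⟩
  · have hd : (d (a + b) : ℤ) = (h : ℤ) * h - h := by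
      rw [hh]
      unfold d
      rcases Nat.eq_zero_or_pos h with rfl | h0
      · simp
      · obtain ⟨g, rfl⟩ : ∃ g, h = g + 1 := ⟨h - 1, by omega⟩
        have e3 : (2 * (g + 1)) / 2 = g + 1 := by omega
        have e4 : (2 * (g + 1) - 1) / 2 = g := by omega
        rw [e3, e4]
        push_cast
        ring
    have hz : (a : ℤ) + b = 2 * h := by exact_mod_cast hh
    rw [hd]
    rw [ha, hb]
    nlinarith [sq_nonneg ((a : ℤ) - b)]
  · have hd : (d (a + b) : ℤ) = (h : ℤ) * h := by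
      rw [hh]
      unfold d
      have e3 : (2 * h + 1) / 2 = h := by omega
      have e4 : (2 * h + 1 - 1) / 2 = h := by omega
      rw [e3, e4]
      push_cast
      ring
    have hz : (a : ℤ) + b = 2 * h + 1 := by exact_mod_cast hh
    rw [hd]
    rw [ha, hb]
    have hne : (a : ℤ) - b ≠ 0 := by omega
    have hsq : 1 ≤ ((a : ℤ) - b) ^ 2 := by
      have : 0 < ((a : ℤ) - b) ^ 2 := by positivity
      omega
    nlinarith [hsq]

theorem pairs_lt {n : ℕ} (P : Finset (Fin n)) :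
    2 * ((P ×ˢ P).filter (fun t => t.1 < t.2)).card = P.card * (P.card - 1) := by
  classical
  have h1 : P.offDiag = (P ×ˢ P).filter (fun t => t.1 < t.2) ∪
      (P ×ˢ P).filter (fun t => t.2 < t.1) := by
    ext ⟨x, y⟩
    simp only [Finset.mem_offDiag, Finset.mem_union, Finset.mem_filter, Finset.mem_product]
    constructor
    · rintro ⟨hx, hy, hne⟩
      rcases lt_or_gt_of_ne hne with h | h
      · exact Or.inl ⟨⟨hx, hy⟩, h⟩
      · exact Or.inr ⟨⟨hx, hy⟩, h⟩
    · rintro (⟨⟨hx, hy⟩, h⟩ | ⟨⟨hx, hy⟩, h⟩)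
      · exact ⟨hx, hy, h.ne⟩
      · exact ⟨hx, hy, h.ne'⟩
  have h2 : Disjoint ((P ×ˢ P).filter (fun t => t.1 < t.2))
      ((P ×ˢ P).filter (fun t => t.2 < t.1)) := by
    rw [Finset.disjoint_left]
    rintro ⟨x, y⟩ hx hy
    simp only [Finset.mem_filter] at hx hy
    exact absurd hx.2 (not_lt.2 hy.2.le)
  have h3 : ((P ×ˢ P).filter (fun t => t.2 < t.1)).card =
      ((P ×ˢ P).filter (fun t => t.1 < t.2)).card := by
    apply Finset.card_bij (fun t _ => (t.2, t.1))
    · rintro ⟨x, y⟩ h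
      simp only [Finset.mem_filter, Finset.mem_product] at h ⊢
      exact ⟨⟨h.1.2, h.1.1⟩, h.2⟩
    · rintro ⟨x, y⟩ _ ⟨x', y'⟩ _ h
      simp only [Prod.mk.injEq] at h ⊢
      exact ⟨h.2, h.1⟩
    · rintro ⟨x, y⟩ h
      simp only [Finset.mem_filter, Finset.mem_product] at h
      refine ⟨(y, x), ?_, rfl⟩
      simp only [Finset.mem_filter, Finset.mem_product]
      exact ⟨⟨h.1.2, h.1.1⟩, h.2⟩
  have h4 := Finset.offDiag_card P
  rw [h1, Finset.card_union_of_disjoint h2, h3] at h4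
  rw [two_mul, h4]
  rcases Nat.eq_zero_or_pos P.card with h | h
  · rw [h]
  · rw [Nat.mul_sub_one]

end Vale.Agent.P040
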