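import Vale.Agent.Lib.P040.Draw

/-! P040: straight-line drawings with one class collinear. -/

open Finset

namespace Vale.Agent.P040

theorem seg_mem {a : ℝ} {v : ℝ × ℝ} (hv : v.2 ≠ 0) {y : ℝ} (h1 : 0 < y * v.2)
    (h2 : |y| < |v.2|) :
    ((a + (v.1 - a) * (y / v.2), y) : ℝ × ℝ) ∈ openSegment ℝ ((a, 0) : ℝ × ℝ) v := by
  have h3 : 0 < y / v.2 := by
    have h4 : y / v.2 = (y * v.2) / (v.2 ^ 2) := by field_simp
    rw [h4]
    positivity
  have h5 : y / v.2 < 1 := by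
    have h6 : |y / v.2| < 1 := by
      rw [abs_div, div_lt_one (abs_pos.2 hv)]; exact h2
    exact (abs_lt.1 h6).2
  refine ⟨1 - y / v.2, y / v.2, by linarith, h3, by ring, ?_⟩
  ext
  · simp only [Prod.fst_add, Prod.smul_fst, smul_eq_mul]
    ring
  · simp only [Prod.snd_add, Prod.smul_snd, smul_eq_mul, mul_zero, zero_add]
    field_simp

theorem seg_mem' {a : ℝ} {v : ℝ × ℝ} (hv : v.2 ≠ 0) {y : ℝ} (h1 : y ∈ Set.uIcc 0 v.2) :
    ((a + (v.1 - a) * (y / v.2), y) : ℝ × ℝ) ∈ segment ℝ ((a, 0) : ℝ × ℝ) v := by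
  have h3 : 0 ≤ y / v.2 ∧ y / v.2 ≤ 1 := by
    rw [Set.mem_uIcc] at h1
    rcases h1 with ⟨h2, h3⟩ | ⟨h2, h3⟩
    · have hpos : 0 < v.2 := lt_of_le_of_ne (h2.trans h3) (Ne.symm hv)
      exact ⟨div_nonneg h2 hpos.le, (div_le_one hpos).2 h3⟩
    · have hneg : v.2 < 0 := lt_of_le_of_ne (h2.trans h3) hv
      exact ⟨div_nonneg_of_nonpos h3 hneg.le, (div_le_one_of_neg hneg).2 h2⟩
  refine ⟨1 - y / v.2, y / v.2, by linarith [h3.2], h3.1, by ring, ?_⟩
  ext
  · simp only [Prod.fst_add, Prod.smul_fst, smul_eq_mul]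
    ring
  · simp only [Prod.snd_add, Prod.smul_snd, smul_eq_mul, mul_zero, zero_add]
    field_simp

/-- the line drawing given by straight segments -/
noncomputable def straight {m n : ℕ} (p : Fin m → ℝ) (v : Fin n → ℝ × ℝ)
    (hp : Function.Injective p) (hv : ∀ k, (v k).2 ≠ 0)
    (hav : ∀ k l i, k ≠ l → v l ∉ segment ℝ ((p i, 0) : ℝ × ℝ) (v k)) : LineDrawing m n where
  p := p
  b := fun k => (v k).1
  h := fun k => (v k).2
  f := fun k i y => p i + ((v k).1 - p i) * (y / (v k).2)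
  p_inj := hp
  h_ne := hv
  cont := fun k i => by fun_prop
  start := fun k i => by simp
  finish := fun k i => by
    have := hv k
    field_simp
    ring
  avoid := fun k l i hkl hmem heq => by
    apply hav k l i hkl
    have h1 := seg_mem' (a := p i) (hv k) hmem
    have h2 : (v l) = ((p i + ((v k).1 - p i) * ((v l).2 / (v k).2), (v l).2) : ℝ × ℝ) :=
      Prod.ext heq.symm rfl
    rw [h2]
    exact h1

open Classical in
/-- the crossing pairs of segments -/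
noncomputable def segCrossings {m n : ℕ} (p : Fin m → ℝ) (v : Fin n → ℝ × ℝ) :
    Finset ((Fin n × Fin n) × (Fin m × Fin m)) :=
  univ.filter (fun t => t.1.1 < t.1.2 ∧ t.2.1 ≠ t.2.2 ∧
    (openSegment ℝ ((p t.2.1, 0) : ℝ × ℝ) (v t.1.1) ∩
      openSegment ℝ ((p t.2.2, 0) : ℝ × ℝ) (v t.1.2)).Nonempty)

theorem bound_straight {m n : ℕ} (p : Fin m → ℝ) (v : Fin n → ℝ × ℝ)
    (hp : Function.Injective p) (hv : ∀ k, (v k).2 ≠ 0)
    (hav : ∀ k l i, k ≠ l → v l ∉ segment ℝ ((p i, 0) : ℝ × ℝ) (v k)) :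
    d m * d n ≤ (segCrossings p v).card := by
  classical
  refine (bound (straight p v hp hv hav)).trans ?_
  apply Finset.card_le_card
  intro t ht
  simp only [crossings, segCrossings, Finset.mem_filter, Finset.mem_univ, true_and] at ht ⊢
  refine ⟨ht.1, ht.2.1, ?_⟩
  obtain ⟨y, h1, h2, h3⟩ := ht.2.2
  have h4 := seg_mem (a := p t.2.1) (hv t.1.1) h1.1 h1.2
  have h5 := seg_mem (a := p t.2.2) (hv t.1.2) h2.1 h2.2
  refine ⟨_, h4, ?_⟩
  have h6 : p t.2.1 + ((v t.1.1).1 - p t.2.1) * (y / (v t.1.1).2) =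
      p t.2.2 + ((v t.1.2).1 - p t.2.2) * (y / (v t.1.2).2) := h3
  rw [h6]
  exact h5

end Vale.Agent.P040
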